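import Mathlib.GroupTheory.PGroup
import Mathlib.GroupTheory.Rank
import Mathlib.GroupTheory.SpecificGroups.Cyclic
import Mathlib.GroupTheory.Nilpotent
import Mathlib.GroupTheory.Sylow
import Mathlib.Data.Fintype.Order

/-!
# P241: group theory of the chain length `ℓ(G, A)` (block P4)

* `HasCyclicChain A B s` : a chain `A = c 0 ◁ c 1 ◁ ⋯ ◁ c s = B` with cyclic quotients.
* `ell A` : the least length of a chain from `A` to `⊤`.
* `ell_le_add` : if `A ≤ B`, `[B, B] ≤ A`, `B` normalises `A` and `B` is generated by `A` and `k`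
  elements, then `ell A ≤ ell B + k`; `ell_le_add_rank`, `ell_le_add_rank_quot` : variants.
* `ell_cong`, `ell_top`, `ell_eq_zero_iff`, `one_le_ell`.
* `decreasing_induction` : induction over conjugacy classes of subgroups, in decreasing order.

The first part follows the starting files of P241 (`Bdl/B1.lean`).
-/

namespace Vale.Agent.P241.H137

open Subgroup

variable {G : Type*} [Group G]

/-- There is a chain `A = c 0 ◁ c 1 ◁ ⋯ ◁ c s = B` with cyclic quotients. -/
def HasCyclicChain (A B : Subgroup G) (s : ℕ) : Prop :=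
  ∃ c : ℕ → Subgroup G, c 0 = A ∧ c s = B ∧ ∀ i < s, c i ≤ c (i + 1) ∧
    ∃ _ : ((c i).subgroupOf (c (i + 1))).Normal,
      IsCyclic (c (i + 1) ⧸ (c i).subgroupOf (c (i + 1)))

/-- `ℓ(G, A)`: the least length of a chain from `A` to `G` with cyclic quotients. -/
noncomputable def ell (A : Subgroup G) : ℕ := sInf {s | HasCyclicChain A ⊤ s}

/-- The conjugate subgroup `g A g⁻¹`. -/
def cong (g : G) (A : Subgroup G) : Subgroup G := A.map (MulAut.conj g).toMonoidHom

/-! ### Steps -/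

/-- `A` is normal in `B` with cyclic quotient, elementwise. -/
def Step (A B : Subgroup G) : Prop :=
  A ≤ B ∧ (∀ b ∈ B, ∀ a ∈ A, b * a * b⁻¹ ∈ A) ∧ ∃ g ∈ B, ∀ b ∈ B, ∃ k : ℤ, (g ^ k)⁻¹ * b ∈ A

theorem step_iff {A B : Subgroup G} :
    Step A B ↔ (A ≤ B ∧ ∃ _ : (A.subgroupOf B).Normal, IsCyclic (B ⧸ A.subgroupOf B)) := by
  constructor
  · rintro ⟨h1, h2, g, hg, h3⟩
    have hn : (A.subgroupOf B).Normal := ⟨fun a ha b => by
      rw [Subgroup.mem_subgroupOf] at ha ⊢
      simpa using h2 b.1 b.2 a.1 ha⟩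
    refine ⟨h1, hn, ?_⟩
    · refine ⟨((⟨g, hg⟩ : B) : B ⧸ A.subgroupOf B), fun q => ?_⟩
      obtain ⟨b, rfl⟩ := QuotientGroup.mk_surjective q
      obtain ⟨k, hk⟩ := h3 b.1 b.2
      refine ⟨k, ?_⟩
      show ((⟨g, hg⟩ : B) : B ⧸ A.subgroupOf B) ^ k = _
      rw [← QuotientGroup.mk_zpow, QuotientGroup.eq, Subgroup.mem_subgroupOf]
      simpa using hk
  · rintro ⟨h1, hn, hc⟩
    refine ⟨h1, fun b hb a ha => ?_, ?_⟩
    · have := hn.conj_mem ⟨a, h1 ha⟩ (by simpa [Subgroup.mem_subgroupOf] using ha) ⟨b, hb⟩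
      simpa [Subgroup.mem_subgroupOf] using this
    · obtain ⟨q, hq⟩ := hc
      obtain ⟨g, rfl⟩ := QuotientGroup.mk_surjective q
      refine ⟨g.1, g.2, fun b hb => ?_⟩
      obtain ⟨k, hk⟩ := hq ((⟨b, hb⟩ : B) : B ⧸ A.subgroupOf B)
      refine ⟨k, ?_⟩
      change ((g : B) : B ⧸ A.subgroupOf B) ^ k = _ at hk
      rw [← QuotientGroup.mk_zpow, QuotientGroup.eq, Subgroup.mem_subgroupOf] at hk
      simpa using hk

theorem hasCyclicChain_iff {A B : Subgroup G} {s : ℕ} : HasCyclicChain A B s ↔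
    ∃ c : ℕ → Subgroup G, c 0 = A ∧ c s = B ∧ ∀ i < s, Step (c i) (c (i + 1)) := by
  unfold HasCyclicChain
  simp only [step_iff]

theorem HasCyclicChain.refl (A : Subgroup G) : HasCyclicChain A A 0 :=
  ⟨fun _ => A, rfl, rfl, fun i hi => absurd hi (Nat.not_lt_zero i)⟩

theorem HasCyclicChain.cons {A B C : Subgroup G} {s : ℕ} (h : Step A B)
    (h' : HasCyclicChain B C s) : HasCyclicChain A C (s + 1) := by
  rw [hasCyclicChain_iff] at h' ⊢
  obtain ⟨c, h0, hs, hc⟩ := h'
  refine ⟨fun i => if i = 0 then A else c (i - 1), by simp, by simp [hs], fun i hi => ?_⟩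
  rcases Nat.eq_zero_or_pos i with rfl | hpos
  · simpa [h0] using h
  · obtain ⟨j, rfl⟩ : ∃ j, i = j + 1 := ⟨i - 1, by omega⟩
    simpa using hc j (by omega)

theorem HasCyclicChain.snoc {A B C : Subgroup G} {s : ℕ} (h' : HasCyclicChain A B s)
    (h : Step B C) : HasCyclicChain A C (s + 1) := by
  rw [hasCyclicChain_iff] at h' ⊢
  obtain ⟨c, h0, hs, hc⟩ := h'
  refine ⟨fun i => if i ≤ s then c i else C, by simp [h0], by simp, fun i hi => ?_⟩
  rcases Nat.lt_or_ge i s with hlt | hge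
  · simpa [hlt.le, Nat.succ_le_of_lt hlt] using hc i hlt
  · obtain rfl : i = s := by omega
    simpa [hs] using h

/-- Induction principle: a chain is empty or ends with a step. -/
theorem HasCyclicChain.rec' {A : Subgroup G} {P : Subgroup G → ℕ → Prop} (h0 : P A 0)
    (h1 : ∀ B C s, HasCyclicChain A B s → P B s → Step B C → P C (s + 1)) {B : Subgroup G} {s : ℕ}
    (h : HasCyclicChain A B s) : P B s := by
  induction s generalizing B with
  | zero =>
    obtain ⟨c, hc0, hcs, _⟩ := h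
    rw [← hcs, hc0]
    exact h0
  | succ s ih =>
    have h' := hasCyclicChain_iff.1 h
    obtain ⟨c, hc0, hcs, hc⟩ := h'
    have h2 : HasCyclicChain A (c s) s :=
      hasCyclicChain_iff.2 ⟨c, hc0, rfl, fun i hi => hc i (by omega)⟩
    rw [← hcs]
    exact h1 _ _ _ h2 (ih h2) (hc s (by omega))

theorem HasCyclicChain.trans {A B C : Subgroup G} {s t : ℕ} (h : HasCyclicChain A B s)
    (h' : HasCyclicChain B C t) : HasCyclicChain A C (s + t) :=
  h'.rec' (P := fun C t => HasCyclicChain A C (s + t)) h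
    (fun _ _ _ _ hP hS => hP.snoc hS)

theorem HasCyclicChain.le {A B : Subgroup G} {s : ℕ} (h : HasCyclicChain A B s) : A ≤ B :=
  h.rec' (P := fun C _ => A ≤ C) le_rfl (fun _ _ _ _ hP hS => hP.trans hS.1)

theorem ell_le {A : Subgroup G} {s : ℕ} (h : HasCyclicChain A ⊤ s) : ell A ≤ s :=
  Nat.sInf_le h

theorem HasCyclicChain.ell {A : Subgroup G} {s : ℕ} (h : HasCyclicChain A ⊤ s) :
    HasCyclicChain A ⊤ (ell A) :=
  Nat.sInf_mem (s := {s | HasCyclicChain A ⊤ s}) ⟨s, h⟩

/-- The subgroup generated by `A` and an element `x` normalising it. -/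
def adj (A : Subgroup G) (x : G) (hx : x ∈ Subgroup.normalizer (A : Set G)) : Subgroup G where
  carrier := {b | ∃ k : ℤ, (x ^ k)⁻¹ * b ∈ A}
  one_mem' := ⟨0, by simp⟩
  mul_mem' := by
    rintro b c ⟨k, hk⟩ ⟨l, hl⟩
    refine ⟨k + l, ?_⟩
    have h1 : x ^ (-l) ∈ Subgroup.normalizer (A : Set G) := Subgroup.zpow_mem _ hx _
    have h2 := (Subgroup.mem_normalizer_iff.1 h1 _).1 hk
    have h3 := A.mul_mem h2 hl
    have : (x ^ (k + l))⁻¹ * (b * c) = x ^ (-l) * ((x ^ k)⁻¹ * b) * (x ^ (-l))⁻¹ * ((x ^ l)⁻¹ * c) := by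
      rw [zpow_add, zpow_neg]
      group
    rw [this]
    exact h3
  inv_mem' := by
    rintro b ⟨k, hk⟩
    refine ⟨-k, ?_⟩
    have h1 : x ^ k ∈ Subgroup.normalizer (A : Set G) := Subgroup.zpow_mem _ hx _
    have h2 := (Subgroup.mem_normalizer_iff.1 h1 _).1 (A.inv_mem hk)
    have : (x ^ (-k))⁻¹ * b⁻¹ = x ^ k * ((x ^ k)⁻¹ * b)⁻¹ * (x ^ k)⁻¹ := by
      rw [zpow_neg]
      group
    rw [this]
    exact h2

theorem step_adj (A : Subgroup G) (x : G) (hx : x ∈ Subgroup.normalizer (A : Set G)) :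
    Step A (adj A x hx) := by
  refine ⟨fun a ha => ⟨0, by simpa using ha⟩, ?_, x, ⟨1, by simp⟩, fun b hb => hb⟩
  rintro b ⟨k, hk⟩ a ha
  have h1 : x ^ k ∈ Subgroup.normalizer (A : Set G) := Subgroup.zpow_mem _ hx _
  have h2 : ((x ^ k)⁻¹ * b) * a * ((x ^ k)⁻¹ * b)⁻¹ ∈ A :=
    A.mul_mem (A.mul_mem hk ha) (A.inv_mem hk)
  have h3 := (Subgroup.mem_normalizer_iff.1 h1 _).1 h2
  have : b * a * b⁻¹ = x ^ k * ((x ^ k)⁻¹ * b * a * ((x ^ k)⁻¹ * b)⁻¹) * (x ^ k)⁻¹ := by group
  rw [this]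
  exact h3

theorem adj_eq (A : Subgroup G) (x : G) (hx : x ∈ Subgroup.normalizer (A : Set G)) :
    adj A x hx = A ⊔ zpowers x := by
  apply le_antisymm
  · rintro b ⟨k, hk⟩
    have h1 : x ^ k ∈ A ⊔ zpowers x := (le_sup_right : zpowers x ≤ _) ⟨k, rfl⟩
    have h2 : (x ^ k)⁻¹ * b ∈ A ⊔ zpowers x := (le_sup_left : A ≤ _) hk
    simpa using mul_mem h1 h2
  · refine sup_le (step_adj A x hx).1 ((zpowers_le).2 ⟨1, by simp⟩)

theorem step_sup {A : Subgroup G} {x : G} (hx : x ∈ normalizer (A : Set G)) :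
    Step A (A ⊔ zpowers x) := adj_eq A x hx ▸ step_adj A x hx

/-- In a finite `p`-group, normalisers grow. -/
theorem exists_normalizing [Finite G] {p : ℕ} [Fact p.Prime] (hG : IsPGroup p G)
    {A B : Subgroup G} (h : A < B) :
    ∃ x ∈ B, x ∈ Subgroup.normalizer (A : Set G) ∧ x ∉ A := by
  have hB : IsPGroup p B := hG.to_subgroup B
  have hnil : Group.IsNilpotent B := hB.isNilpotent
  have hnc : NormalizerCondition B := Group.normalizerCondition_of_isNilpotent
  have hlt : A.subgroupOf B < ⊤ := by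
    rw [lt_top_iff_ne_top]
    intro htop
    exact h.not_ge (Subgroup.subgroupOf_eq_top.1 htop)
  obtain ⟨_, hx⟩ := SetLike.lt_iff_le_and_exists.1 (hnc _ hlt)
  obtain ⟨x, hx1, hx2⟩ := hx
  refine ⟨x.1, x.2, ?_, by simpa [Subgroup.mem_subgroupOf] using hx2⟩
  rw [Subgroup.mem_normalizer_iff] at hx1 ⊢
  intro a
  constructor
  · intro ha
    have := (hx1 ⟨a, h.le ha⟩).1 (by simpa [Subgroup.mem_subgroupOf] using ha)
    simpa [Subgroup.mem_subgroupOf] using this
  · intro ha
    have haB : a ∈ B := by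
      have h1 := B.mul_mem (B.mul_mem (B.inv_mem x.2) (h.le ha)) x.2
      have h2 : (x.1)⁻¹ * (x.1 * a * (x.1)⁻¹) * x.1 = a := by group
      rwa [h2] at h1
    have := (hx1 ⟨a, haB⟩).2 (by simpa [Subgroup.mem_subgroupOf] using ha)
    simpa [Subgroup.mem_subgroupOf] using this

theorem card_lt_of_lt [Finite G] {A B : Subgroup G} (h : A < B) : Nat.card A < Nat.card B := by
  have := Set.ncard_lt_ncard (s := (A : Set G)) (t := (B : Set G)) h (Set.toFinite _)
  rwa [← Nat.card_coe_set_eq, ← Nat.card_coe_set_eq] at this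

theorem card_le_of_le' [Finite G] {A B : Subgroup G} (h : A ≤ B) : Nat.card A ≤ Nat.card B := by
  rcases h.eq_or_lt with rfl | h
  · exact le_rfl
  · exact (card_lt_of_lt h).le

/-- Chains exist in finite `p`-groups. -/
theorem exists_chain [Finite G] {p : ℕ} [Fact p.Prime] (hG : IsPGroup p G)
    {A B : Subgroup G} (h : A ≤ B) : ∃ s, HasCyclicChain A B s := by
  induction hn : Nat.card B - Nat.card A using Nat.strong_induction_on generalizing A with
  | _ n ih =>
    rcases h.eq_or_lt with rfl | hlt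
    · exact ⟨0, HasCyclicChain.refl _⟩
    · obtain ⟨x, hxB, hx, hxA⟩ := exists_normalizing hG hlt
      have hle : adj A x hx ≤ B := by
        rintro b ⟨k, hk⟩
        have := B.mul_mem (B.zpow_mem hxB k) (h hk)
        simpa using this
      have hst := step_adj A x hx
      have hxm : x ∈ adj A x hx := ⟨1, by simp⟩
      have hlt' : A < adj A x hx := lt_of_le_of_ne hst.1 (fun e => hxA (e ▸ hxm))
      have hc := card_lt_of_lt hlt'
      have hc2 := card_le_of_le' hle
      obtain ⟨s, hs⟩ := ih _ (by omega) hle rfl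
      exact ⟨s + 1, HasCyclicChain.cons hst hs⟩

/-- The least length of a chain is attained. -/
theorem chain_ell [Finite G] {p : ℕ} [Fact p.Prime] (hG : IsPGroup p G) (A : Subgroup G) :
    HasCyclicChain A ⊤ (ell A) :=
  let ⟨_, h⟩ := exists_chain hG (le_top (a := A))
  h.ell

theorem ell_top : ell (⊤ : Subgroup G) = 0 :=
  Nat.le_zero.1 (ell_le (HasCyclicChain.refl _))

theorem ell_eq_zero_iff [Finite G] {p : ℕ} [Fact p.Prime] (hG : IsPGroup p G) {A : Subgroup G} :
    ell A = 0 ↔ A = ⊤ := by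
  constructor
  · intro h
    have h1 := chain_ell hG A
    rw [h] at h1
    obtain ⟨c, h0, hs, -⟩ := h1
    rw [← h0, hs]
  · rintro rfl
    exact ell_top

theorem one_le_ell [Finite G] {p : ℕ} [Fact p.Prime] (hG : IsPGroup p G) {A : Subgroup G}
    (hA : A ≠ ⊤) : 1 ≤ ell A :=
  Nat.one_le_iff_ne_zero.2 fun h => hA ((ell_eq_zero_iff hG).1 h)

/-! ### Abelian quotients -/

/-- A chain of length `k` from `A` to `B` if `B / A` is abelian and generated by `k` elements. -/
theorem chain_of_abelian {A B : Subgroup G} (hAB : A ≤ B)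
    (hc : ∀ x ∈ B, ∀ y ∈ B, x * y * x⁻¹ * y⁻¹ ∈ A) {l : List G}
    (hl : A ⊔ closure {x | x ∈ l} = B) : HasCyclicChain A B l.length := by
  induction l generalizing A with
  | nil =>
    have : A = B := by simpa using hl
    subst this
    exact HasCyclicChain.refl _
  | cons x l ih =>
    have hxB : x ∈ B := by
      rw [← hl]
      exact (le_sup_right : closure _ ≤ _) (subset_closure (by simp))
    have hx : x ∈ normalizer (A : Set G) := by
      rw [mem_normalizer_iff]
      intro a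
      constructor
      · intro ha
        have h1 := hc x hxB a (hAB ha)
        simpa [mul_assoc] using mul_mem h1 ha
      · intro ha
        have h2 : a ∈ B := by
          have h3 := B.mul_mem (B.mul_mem (B.inv_mem hxB) (hAB ha)) hxB
          have h4 : x⁻¹ * (x * a * x⁻¹) * x = a := by group
          rwa [h4] at h3
        have h1 := A.inv_mem (hc x hxB a h2)
        have h5 := A.mul_mem h1 ha
        have h6 : (x * a * x⁻¹ * a⁻¹)⁻¹ * (x * a * x⁻¹) = a := by group
        rwa [h6] at h5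
    have hst := step_sup hx
    refine HasCyclicChain.cons hst (ih (sup_le hAB ((zpowers_le).2 hxB))
      (fun y hy z hz => (le_sup_left : A ≤ _) (hc y hy z hz)) ?_)
    rw [← hl, sup_assoc]
    congr 1
    apply le_antisymm
    · refine sup_le ((zpowers_le).2 (subset_closure (by simp))) ((closure_le _).2 ?_)
      intro y hy
      exact subset_closure (by simpa using Or.inr hy)
    · rw [closure_le]
      rintro y hy
      rcases List.mem_cons.1 hy with rfl | hy
      · exact (le_sup_left : zpowers y ≤ _) (mem_zpowers y)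
      · exact (le_sup_right : closure _ ≤ _) (subset_closure hy)

/-- **`ℓ(G, A) ≤ ℓ(G, B) + k`** if `B / A` is abelian and generated by `k` elements. -/
theorem ell_le_add [Finite G] {p : ℕ} [Fact p.Prime] (hG : IsPGroup p G) {A B : Subgroup G}
    (hAB : A ≤ B) (hc : ∀ x ∈ B, ∀ y ∈ B, x * y * x⁻¹ * y⁻¹ ∈ A) {l : List G}
    (hl : A ⊔ closure {x | x ∈ l} = B) : ell A ≤ ell B + l.length := by
  rw [add_comm]
  exact ell_le ((chain_of_abelian hAB hc hl).trans (chain_ell hG B))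

/-- Variant: `B` is the image of `A` and of a group of rank `k`, modulo `A`; `f : B → V` is a
surjection onto an abelian group with kernel `A`. -/
theorem ell_le_add_rank [Finite G] {p : ℕ} [Fact p.Prime] (hG : IsPGroup p G) {A B : Subgroup G}
    (hAB : A ≤ B) {V : Type*} [Group V] (hV : ∀ x y : V, x * y = y * x) (f : B →* V)
    (hf : Function.Surjective f) (hk : f.ker = A.subgroupOf B) [Group.FG V] :
    ell A ≤ ell B + Group.rank V := by
  obtain ⟨S, hS, hSc⟩ := Group.rank_spec V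
  choose g hg using hf
  have hlen : (S.toList.map fun v => (g v : G)).length = Group.rank V := by simp [hS]
  rw [← hlen]
  refine ell_le_add hG hAB (fun x hx y hy => ?_) ?_
  · have h1 : (⟨x, hx⟩ * ⟨y, hy⟩ * ⟨x, hx⟩⁻¹ * ⟨y, hy⟩⁻¹ : B) ∈ f.ker := by
      rw [MonoidHom.mem_ker]
      simp only [map_mul, map_inv]
      rw [hV (f ⟨x, hx⟩) (f ⟨y, hy⟩)]
      group
    rw [hk, mem_subgroupOf] at h1
    simpa using h1
  · apply le_antisymm
    · refine sup_le hAB ((closure_le _).2 ?_)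
      intro y hy
      simp only [List.mem_map, Set.mem_ofPred_eq] at hy
      obtain ⟨v, -, rfl⟩ := hy
      exact (g v).2
    · -- the subgroup `C ≤ B` generated has image `V` and contains the kernel
      set C := A ⊔ closure {x | x ∈ S.toList.map fun v => (g v : G)} with hC
      have h1 : (C.subgroupOf B).map f = ⊤ := by
        rw [eq_top_iff, ← hSc, closure_le]
        intro v hv
        refine ⟨g v, ?_, hg v⟩
        rw [SetLike.mem_coe, mem_subgroupOf]
        refine (le_sup_right : closure _ ≤ _) (subset_closure ?_)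
        simp only [List.mem_map, Set.mem_ofPred_eq]
        exact ⟨v, by simpa using hv, rfl⟩
      intro b hb
      have h2 : f ⟨b, hb⟩ ∈ (C.subgroupOf B).map f := by rw [h1]; trivial
      obtain ⟨c, hc, hcb⟩ := h2
      have h3 : c⁻¹ * ⟨b, hb⟩ ∈ f.ker := by
        rw [MonoidHom.mem_ker, map_mul, map_inv, hcb, inv_mul_cancel]
      rw [hk, mem_subgroupOf] at h3
      have h4 : (c : G) ∈ C := hc
      have h5 : ((c⁻¹ * ⟨b, hb⟩ : B) : G) ∈ C := (le_sup_left : A ≤ _) h3
      have := C.mul_mem h4 h5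
      simpa using this

/-! ### The Weyl group `W = N(A) / A` -/

/-- the normaliser of `A` -/
abbrev NA (A : Subgroup G) : Subgroup G := normalizer (A : Set G)

instance normal_NA (A : Subgroup G) : (A.subgroupOf (NA A)).Normal :=
  (normal_subgroupOf_iff_le_normalizer le_normalizer).2 le_rfl

/-- the Weyl group `N(A) / A` -/
abbrev Weyl (A : Subgroup G) : Type _ := NA A ⧸ A.subgroupOf (NA A)

/-- the subgroup of `G` between `A` and `N(A)` with image `V` in `N(A) / A` -/
def ofWeyl (A : Subgroup G) (V : Subgroup (Weyl A)) : Subgroup G :=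
  (V.comap (QuotientGroup.mk' (A.subgroupOf (NA A)))).map (NA A).subtype

theorem mem_ofWeyl {A : Subgroup G} {V : Subgroup (Weyl A)} {x : G} :
    x ∈ ofWeyl A V ↔ ∃ hx : x ∈ NA A, QuotientGroup.mk' (A.subgroupOf (NA A)) ⟨x, hx⟩ ∈ V := by
  constructor
  · rintro ⟨y, hy, rfl⟩
    exact ⟨y.2, hy⟩
  · rintro ⟨hx, h⟩
    exact ⟨⟨x, hx⟩, h, rfl⟩

theorem le_ofWeyl (A : Subgroup G) (V : Subgroup (Weyl A)) : A ≤ ofWeyl A V := by
  intro a ha
  refine mem_ofWeyl.2 ⟨le_normalizer ha, ?_⟩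
  have : QuotientGroup.mk' (A.subgroupOf (NA A)) ⟨a, le_normalizer ha⟩ = 1 := by
    rw [QuotientGroup.mk'_apply, QuotientGroup.eq_one_iff]
    exact ha
  rw [this]
  exact V.one_mem

theorem ofWeyl_le (A : Subgroup G) (V : Subgroup (Weyl A)) : ofWeyl A V ≤ NA A :=
  fun _ h => (mem_ofWeyl.1 h).1

theorem ofWeyl_bot (A : Subgroup G) : ofWeyl A ⊥ = A := by
  refine le_antisymm (fun x hx => ?_) (le_ofWeyl A ⊥)
  obtain ⟨h1, h2⟩ := mem_ofWeyl.1 hx
  rw [mem_bot, QuotientGroup.mk'_apply, QuotientGroup.eq_one_iff] at h2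
  exact h2

theorem ofWeyl_mono {A : Subgroup G} {V V' : Subgroup (Weyl A)} (h : V ≤ V') :
    ofWeyl A V ≤ ofWeyl A V' := fun _ hx =>
  let ⟨h1, h2⟩ := mem_ofWeyl.1 hx
  mem_ofWeyl.2 ⟨h1, h h2⟩

theorem lt_ofWeyl {A : Subgroup G} {V : Subgroup (Weyl A)} (hV : V ≠ ⊥) : A < ofWeyl A V := by
  refine lt_of_le_of_ne (le_ofWeyl A V) fun h => hV ?_
  rw [eq_bot_iff]
  intro v hv
  obtain ⟨x, rfl⟩ := QuotientGroup.mk'_surjective (A.subgroupOf (NA A)) v
  have h1 : (x : G) ∈ ofWeyl A V := mem_ofWeyl.2 ⟨x.2, hv⟩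
  rw [← h] at h1
  rw [mem_bot, QuotientGroup.mk'_apply, QuotientGroup.eq_one_iff]
  exact h1

/-- the surjection `B → V` -/
def toWeyl (A : Subgroup G) (V : Subgroup (Weyl A)) : ofWeyl A V →* V where
  toFun x := ⟨QuotientGroup.mk' (A.subgroupOf (NA A)) ⟨x.1, ofWeyl_le A V x.2⟩,
    (mem_ofWeyl.1 x.2).2⟩
  map_one' := Subtype.ext (map_one (QuotientGroup.mk' (A.subgroupOf (NA A))))
  map_mul' x y := Subtype.ext (map_mul (QuotientGroup.mk' (A.subgroupOf (NA A)))
    ⟨x.1, ofWeyl_le A V x.2⟩ ⟨y.1, ofWeyl_le A V y.2⟩)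

theorem toWeyl_surjective (A : Subgroup G) (V : Subgroup (Weyl A)) :
    Function.Surjective (toWeyl A V) := by
  rintro ⟨v, hv⟩
  obtain ⟨x, rfl⟩ := QuotientGroup.mk'_surjective (A.subgroupOf (NA A)) v
  exact ⟨⟨x.1, mem_ofWeyl.2 ⟨x.2, hv⟩⟩, rfl⟩

theorem ker_toWeyl (A : Subgroup G) (V : Subgroup (Weyl A)) :
    (toWeyl A V).ker = A.subgroupOf (ofWeyl A V) := by
  ext x
  rw [MonoidHom.mem_ker, mem_subgroupOf]
  constructor
  · intro h
    have h1 := congrArg Subtype.val h
    change QuotientGroup.mk' (A.subgroupOf (NA A)) ⟨x.1, ofWeyl_le A V x.2⟩ = 1 at h1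
    rw [QuotientGroup.mk'_apply, QuotientGroup.eq_one_iff] at h1
    exact h1
  · intro h
    refine Subtype.ext ?_
    change QuotientGroup.mk' (A.subgroupOf (NA A)) ⟨x.1, ofWeyl_le A V x.2⟩ = 1
    rw [QuotientGroup.mk'_apply, QuotientGroup.eq_one_iff]
    exact h

/-- **`ℓ(G, A) ≤ ℓ(G, B) + rank V`** for `V ≤ N(A) / A` abelian and `B` its preimage. -/
theorem ell_le_ofWeyl [Finite G] {p : ℕ} [Fact p.Prime] (hG : IsPGroup p G) (A : Subgroup G)
    (V : Subgroup (Weyl A)) (hV : ∀ x ∈ V, ∀ y ∈ V, x * y = y * x) :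
    ell A ≤ ell (ofWeyl A V) + Group.rank V :=
  ell_le_add_rank hG (le_ofWeyl A V) (fun x y => Subtype.ext (hV x.1 x.2 y.1 y.2)) (toWeyl A V)
    (toWeyl_surjective A V) (ker_toWeyl A V)

/-! ### Conjugation -/

theorem mem_cong {g x : G} {A : Subgroup G} : x ∈ cong g A ↔ g⁻¹ * x * g ∈ A := by
  unfold cong
  constructor
  · rintro ⟨a, ha, rfl⟩
    have : g⁻¹ * (g * a * g⁻¹) * g = a := by group
    change g⁻¹ * (g * a * g⁻¹) * g ∈ A
    rwa [this]
  · intro h
    refine ⟨g⁻¹ * x * g, h, ?_⟩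
    change g * (g⁻¹ * x * g) * g⁻¹ = x
    group

@[simp] theorem cong_one (A : Subgroup G) : cong 1 A = A := by
  ext x; simp [mem_cong]

theorem cong_mul (g h : G) (A : Subgroup G) : cong (g * h) A = cong g (cong h A) := by
  ext x; simp [mem_cong, mul_assoc]

@[simp] theorem cong_inv_cong (g : G) (A : Subgroup G) : cong g⁻¹ (cong g A) = A := by
  rw [← cong_mul, inv_mul_cancel, cong_one]

@[simp] theorem cong_cong_inv (g : G) (A : Subgroup G) : cong g (cong g⁻¹ A) = A := by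
  rw [← cong_mul, mul_inv_cancel, cong_one]

theorem cong_le_cong {g : G} {A B : Subgroup G} : cong g A ≤ cong g B ↔ A ≤ B := by
  constructor
  · intro h x hx
    have h1 : g * x * g⁻¹ ∈ cong g A := mem_cong.2 (by
      have : g⁻¹ * (g * x * g⁻¹) * g = x := by group
      rwa [this])
    have h2 := mem_cong.1 (h h1)
    have : g⁻¹ * (g * x * g⁻¹) * g = x := by group
    rwa [this] at h2
  · intro h x hx
    exact mem_cong.2 (h (mem_cong.1 hx))

theorem cong_le_iff {g : G} {A B : Subgroup G} : cong g A ≤ B ↔ A ≤ cong g⁻¹ B := by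
  rw [← cong_le_cong (g := g⁻¹), cong_inv_cong]

@[simp] theorem cong_top (g : G) : cong g (⊤ : Subgroup G) = ⊤ := by
  ext x; simp [mem_cong]

theorem cong_lt_cong {g : G} {A B : Subgroup G} : cong g A < cong g B ↔ A < B := by
  simp only [lt_iff_le_not_ge, cong_le_cong]

theorem Step.cong {A B : Subgroup G} (h : Step A B) (g : G) : Step (cong g A) (cong g B) := by
  obtain ⟨h1, h2, x, hx, h3⟩ := h
  refine ⟨cong_le_cong.2 h1, ?_, g * x * g⁻¹, ?_, ?_⟩
  · intro b hb a ha
    rw [mem_cong] at hb ha ⊢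
    have := h2 _ hb _ ha
    have e : g⁻¹ * b * g * (g⁻¹ * a * g) * (g⁻¹ * b * g)⁻¹ = g⁻¹ * (b * a * b⁻¹) * g := by group
    rwa [e] at this
  · rw [mem_cong]
    have : g⁻¹ * (g * x * g⁻¹) * g = x := by group
    rwa [this]
  · intro b hb
    obtain ⟨k, hk⟩ := h3 _ (mem_cong.1 hb)
    refine ⟨k, mem_cong.2 ?_⟩
    have e : g⁻¹ * (((g * x * g⁻¹) ^ k)⁻¹ * b) * g = (x ^ k)⁻¹ * (g⁻¹ * b * g) := by
      rw [conj_zpow]; group
    rwa [e]

theorem HasCyclicChain.cong {A B : Subgroup G} {s : ℕ} (h : HasCyclicChain A B s) (g : G) :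
    HasCyclicChain (cong g A) (cong g B) s :=
  h.rec' (P := fun C t => HasCyclicChain (H137.cong g A) (H137.cong g C) t)
    (HasCyclicChain.refl _) (fun _ _ _ _ hP hS => hP.snoc (hS.cong g))

theorem hasCyclicChain_cong_top {A : Subgroup G} {s : ℕ} {g : G} :
    HasCyclicChain (cong g A) ⊤ s ↔ HasCyclicChain A ⊤ s := by
  constructor
  · intro h
    simpa using h.cong g⁻¹
  · intro h
    simpa using h.cong g

@[simp] theorem ell_cong (g : G) (A : Subgroup G) : ell (cong g A) = ell A := by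
  unfold ell
  simp only [hasCyclicChain_cong_top]

theorem card_cong (g : G) (A : Subgroup G) : Nat.card (cong g A) = Nat.card A :=
  (Nat.card_congr (A.equivMapOfInjective _ (MulAut.conj g).injective).toEquiv).symm

/-! ### Induction over conjugacy classes, in decreasing order -/

/-- **Induction over the conjugacy classes of subgroups of a finite group, in decreasing order.**
`Q S` : the subgroups in `S` have been processed; `S` is closed upwards and under conjugation. -/
theorem decreasing_induction [Finite G] (Q : Set (Subgroup G) → Prop) (h0 : Q {⊤})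
    (hstep : ∀ (S : Set (Subgroup G)) (A : Subgroup G), ⊤ ∈ S →
      (∀ B ∈ S, ∀ C, B ≤ C → C ∈ S) → (∀ B ∈ S, ∀ g, cong g B ∈ S) → A ∉ S →
      (∀ B, A < B → B ∈ S) → (∀ B ∈ S, ∀ g, ¬ B ≤ cong g A) → Q S →
      Q (S ∪ {B | ∃ g, B = cong g A})) :
    Q Set.univ := by
  classical
  -- a maximal processed set
  have hfin : Finite (Set (Subgroup G)) := inferInstance
  let P : Set (Set (Subgroup G)) := {S | ⊤ ∈ S ∧ (∀ B ∈ S, ∀ C, B ≤ C → C ∈ S) ∧
    (∀ B ∈ S, ∀ g, cong g B ∈ S) ∧ Q S}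
  have hP : ({⊤} : Set (Subgroup G)) ∈ P := by
    refine ⟨rfl, ?_, ?_, h0⟩
    · rintro B hB C hC
      rw [Set.mem_singleton_iff] at hB ⊢
      subst hB
      exact top_le_iff.1 hC
    · rintro B hB g
      rw [Set.mem_singleton_iff] at hB ⊢
      subst hB
      exact cong_top g
  obtain ⟨S, hS⟩ := P.toFinite.exists_maximal ⟨_, hP⟩
  obtain ⟨htop, hup, hcj, hQ⟩ := hS.prop
  by_cases huniv : S = Set.univ
  · rwa [huniv] at hQ
  exfalso
  obtain ⟨A₀, hA₀⟩ := (Set.ne_univ_iff_exists_notMem S).1 huniv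
  obtain ⟨A, hA⟩ := (Sᶜ : Set (Subgroup G)).toFinite.exists_maximal ⟨A₀, hA₀⟩
  have hAS : A ∉ S := hA.prop
  have hA1 : ∀ B, A < B → B ∈ S := fun B hB => by
    by_contra h
    exact hA.not_prop_of_gt hB h
  have hno : ∀ B ∈ S, ∀ g, ¬ B ≤ cong g A := fun B hB g h => hAS (by
    have := hcj _ (hup B hB _ h) g⁻¹
    simpa using this)
  have hnew : S ∪ {B | ∃ g, B = cong g A} ∈ P := by
    refine ⟨Or.inl htop, ?_, ?_, hstep S A htop hup hcj hAS hA1 hno hQ⟩
    · rintro B (hB | ⟨g, rfl⟩) C hC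
      · exact Or.inl (hup B hB C hC)
      · rcases hC.eq_or_lt with rfl | hlt
        · exact Or.inr ⟨g, rfl⟩
        · refine Or.inl ?_
          have h1 : A < cong g⁻¹ C := by
            rw [← cong_lt_cong (g := g)]
            simpa using hlt
          simpa using hcj _ (hA1 _ h1) g
    · rintro B (hB | ⟨g, rfl⟩) h
      · exact Or.inl (hcj B hB h)
      · exact Or.inr ⟨h * g, (cong_mul h g A).symm⟩
  have h2 : A ∈ S := hS.le_of_ge hnew Set.subset_union_left (Or.inr ⟨1, by simp⟩)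
  exact hAS h2

end Vale.Agent.P241.H137
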